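import Vale.Agent.P022D.R.Defs
import Vale.Agent.P022D.G.Frob

/-!
# P022E: small facts on the residual representation which do not use its shape
-/

set_option linter.all false

noncomputable section

namespace Vale.Agent.P022E.Tri

open Vale.Agent.P022 Vale.Agent.P022D
open Vale.Agent.P027M.S (mx)

variable {F : Type} [Field F]

/-- a triangular basis for a group of elements of trace zero -/
theorem basis {G : Type} [Group G] [CharP F 2] (rb : G →* Matrix (Fin 2) (Fin 2) F)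
    (D : Subgroup G) (ht : ∀ g ∈ D, (rb g).trace = 0) (hd : ∀ g ∈ D, (rb g).det = 1) :
    (∀ g ∈ D, ∃ b : F, rb g = !![1, b; 0, 1]) ∨
      ∃ β : F, ∀ g ∈ D, ∃ b : F, !![0, 1; 1, -β] * rb g * !![β, 1; 1, 0] = !![1, b; 0, 1] := by
  have h2 : (2 : F) = 0 := CharTwo.two_eq_zero
  have k : ∀ g ∈ D, rb g 1 1 = rb g 0 0 ∧ (rb g 0 0 + 1) ^ 2 = rb g 0 1 * rb g 1 0 := by
    intro g hg
    have t := ht g hg
    have d := hd g hg
    rw [Matrix.trace_fin_two] at t
    rw [Matrix.det_fin_two] at d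
    exact ⟨by linear_combination t - rb g 0 0 * h2,
      by linear_combination rb g 0 0 * t - d + (rb g 0 0 - rb g 0 1 * rb g 1 0) * h2⟩
  by_cases hex : ∃ w ∈ D, rb w 1 0 ≠ 0
  · obtain ⟨w, hw, c0⟩ := hex
    refine Or.inr ⟨(rb w 0 0 + 1) / rb w 1 0, fun g hg => ⟨rb g 1 0, ?_⟩⟩
    obtain ⟨a1, a2⟩ := k w hw
    obtain ⟨b1, b2⟩ := k g hg
    have t := ht _ (D.mul_mem hg hw)
    rw [map_mul, Matrix.trace_fin_two, Matrix.mul_apply, Matrix.mul_apply, Fin.sum_univ_two,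
      Fin.sum_univ_two, a1, b1] at t
    obtain ⟨β, hβ⟩ : ∃ β, β = (rb w 0 0 + 1) / rb w 1 0 := ⟨_, rfl⟩
    rw [← hβ]
    rw [eq_div_iff c0] at hβ
    have e0 : rb w 1 0 * (rb g 0 0 + 1) = rb g 1 0 * (rb w 0 0 + 1) := by
      refine sub_eq_zero.1 (pow_eq_zero_iff two_ne_zero |>.1 ?_)
      linear_combination rb w 1 0 ^ 2 * b2 + rb g 1 0 ^ 2 * a2 + rb w 1 0 * rb g 1 0 * t -
        (rb w 1 0 * rb g 1 0 * ((rb g 0 0 + 1) * (rb w 0 0 + 1) + rb g 0 0 * rb w 0 0)) * h2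
    have e1 : rb g 1 0 * β = rb g 0 0 + 1 := mul_left_cancel₀ c0 (by
      linear_combination rb g 1 0 * hβ - e0)
    have e2 : (rb g 0 0 + 1) * β = rb g 0 1 := mul_left_cancel₀ (mul_ne_zero c0 c0) (by
      linear_combination (rb w 1 0 * (rb g 0 0 + 1)) * hβ + (rb w 0 0 + 1) * e0 + rb g 1 0 * a2 +
        rb w 1 0 * t - (rb w 1 0 * (rb g 0 0 * rb w 0 0 + rb w 1 0 * rb g 0 1)) * h2)
    rw [Matrix.eta_fin_two (rb g), b1]
    ext i j
    fin_cases i <;> fin_cases j <;> simp [Matrix.mul_apply, Fin.sum_univ_two]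
    · linear_combination e1 + rb g 0 0 * h2
    · linear_combination e2 - β * e1 + rb g 0 1 * h2 - (β + β * rb g 0 0) * h2
    · linear_combination -e1 - h2
  · push Not at hex
    refine Or.inl fun g hg => ⟨rb g 0 1, ?_⟩
    obtain ⟨b1, b2⟩ := k g hg
    rw [hex g hg, mul_zero, pow_eq_zero_iff two_ne_zero] at b2
    have e : rb g 0 0 = 1 := by linear_combination b2 - h2
    rw [Matrix.eta_fin_two (rb g), b1, e, hex g hg]
    rfl

/-- the same with a basis over `O` -/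
theorem basisO {G O : Type} [Group G] [CommRing O] [CharP F 2] (red : O →+* F)
    (sj : Function.Surjective red) (rb : G →* Matrix (Fin 2) (Fin 2) F)
    (D : Subgroup G) (ht : ∀ g ∈ D, (rb g).trace = 0) (hd : ∀ g ∈ D, (rb g).det = 1) :
    ∃ u v : Matrix (Fin 2) (Fin 2) O, u * v = 1 ∧
      ∀ g ∈ D, ∃ b : O, u.map red * rb g * v.map red = !![1, red b; 0, 1] := by
  rcases basis rb D ht hd with h | ⟨β, h⟩
  · refine ⟨1, 1, one_mul _, fun g hg => ?_⟩
    obtain ⟨b, hb⟩ := h g hg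
    obtain ⟨b, rfl⟩ := sj b
    exact ⟨b, by rw [Matrix.map_one _ red.map_zero red.map_one, one_mul, mul_one, hb]⟩
  · obtain ⟨β, rfl⟩ := sj β
    have e1 : (!![0, 1; 1, -β] : Matrix (Fin 2) (Fin 2) O).map red = !![0, 1; 1, -red β] := by
      ext i j
      fin_cases i <;> fin_cases j <;> simp
    have e2 : (!![β, 1; 1, 0] : Matrix (Fin 2) (Fin 2) O).map red = !![red β, 1; 1, 0] := by
      ext i j
      fin_cases i <;> fin_cases j <;> simp
    refine ⟨!![0, 1; 1, -β], !![β, 1; 1, 0], ?_, fun g hg => ?_⟩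
    · ext i j
      fin_cases i <;> fin_cases j <;> simp [Matrix.mul_apply, Fin.sum_univ_two]
    · obtain ⟨b, hb⟩ := h g hg
      obtain ⟨b, rfl⟩ := sj b
      exact ⟨b, by rw [e1, e2, hb]⟩

theorem mx_mul {ρ : GQ →* GL (Fin 2) F} (g h : GQ) : mx ρ (g * h) = mx ρ g * mx ρ h :=
  congrArg Units.val (map_mul ρ g h)

theorem mx_one {ρ : GQ →* GL (Fin 2) F} : mx ρ 1 = 1 := congrArg Units.val (map_one ρ)

variable {O : Type} [CommRing O] (S : R.Dat O F)

/-- the traces separate -/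
theorem sep (h10 : mx S.rb S.g1 1 0 ≠ 0) {s : GQ}
    (h : ∀ g, (mx S.rb (g * s)).trace = (mx S.rb g).trace) : mx S.rb s = 1 := by
  have a := h 1
  have b := h S.g0
  have c := h S.g1
  have d := h (S.g0 * S.g1)
  simp only [mx_mul, mx_one, one_mul, Matrix.trace_fin_two, Matrix.mul_apply, Fin.sum_univ_two,
    S.d01, S.d10, Matrix.one_apply_eq, zero_mul, mul_zero, add_zero, zero_add] at a b c d
  have ne := sub_ne_zero.2 S.dne
  have e1 : mx S.rb s 0 0 = 1 :=
    mul_left_cancel₀ ne (by linear_combination b - mx S.rb S.g0 1 1 * a)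
  have e4 : mx S.rb s 1 1 = 1 := by linear_combination a - e1
  rw [e1, e4] at c d
  have e2 : mx S.rb s 0 1 = 0 :=
    mul_left_cancel₀ (mul_ne_zero ne h10) (by linear_combination mx S.rb S.g0 0 0 * c - d)
  have e3 : mx S.rb s 1 0 = 0 :=
    mul_left_cancel₀ (mul_ne_zero ne S.n01) (by linear_combination d - mx S.rb S.g0 1 1 * c)
  rw [Matrix.eta_fin_two (mx S.rb s), e1, e2, e3, e4, Matrix.one_fin_two]

theorem ex_tr (h10 : mx S.rb S.g1 1 0 ≠ 0) {s : GQ} (hs : mx S.rb s ≠ 1) :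
    ∃ g, (mx S.rb (g * s)).trace ≠ (mx S.rb g).trace := by
  by_contra hn
  push Not at hn
  exact hs (sep S h10 hn)

theorem tr_ne [CharP F 2] : (mx S.rb S.g0).trace ≠ 0 := fun e => S.dne (by
  rw [Matrix.trace_fin_two] at e
  exact (eq_neg_of_add_eq_zero_left e).trans (CharTwo.neg_eq _))

theorem tr_pow {A : Type} [CommRing A] (h2 : (2 : A) = 0) {X : Matrix (Fin 2) (Fin 2) A}
    (h : X.trace = 0) (k : ℕ) : (X ^ k).trace = 0 := by
  have e : X * X = (-X.det) • 1 := by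
    rw [Matrix.trace_fin_two] at h
    ext i j
    fin_cases i <;> fin_cases j <;>
      simp [Matrix.mul_apply, Fin.sum_univ_two, Matrix.det_fin_two]
    · linear_combination X 0 0 * h
    · linear_combination X 0 1 * h
    · linear_combination X 1 0 * h
    · linear_combination X 1 1 * h
  induction k using Nat.twoStepInduction with
  | zero => rw [pow_zero, Matrix.trace_one, Fintype.card_fin, Nat.cast_ofNat, h2]
  | one => rwa [pow_one]
  | more k a _ => rw [pow_add, sq, e, Matrix.mul_smul, mul_one, Matrix.trace_smul, a, smul_zero]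

/-- a Frobenius element with non zero trace -/
theorem ex_frob [CharP F 2] (opn : IsOpen {g : GQ | S.rb g = 1}) (A : Finset ℕ) :
    ∃ (l : ℕ) (φ : GQ), l.Prime ∧ l ∉ A ∧ IsFrob l φ ∧ (mx S.rb φ).trace ≠ 0 := by
  obtain ⟨l, φ, k, h1, h2, h3, h4⟩ := G.frob S.rb.ker inferInstance opn S.g0 A
  refine ⟨l, φ, h1, h2, h3, fun e => tr_ne S ?_⟩
  have a : mx S.rb S.g0 = mx S.rb φ ^ k := by
    rw [MonoidHom.mem_ker, map_mul, map_inv, inv_mul_eq_one, map_pow] at h4
    unfold mx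
    rw [h4, Units.val_pow_eq_pow_val]
  rw [a]
  exact tr_pow CharTwo.two_eq_zero e k

end Vale.Agent.P022E.Tri
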