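import Mathlib

/-!
# Subgroups of `GL₂` in characteristic two with small Sylow subgroup

A finite subgroup of odd order is commutative. A finite subgroup whose Sylow `2`-subgroups are
cyclic is solvable.
-/

set_option linter.all false

noncomputable section

namespace Vale.Agent.P022E.G

variable {F : Type} [Field F]

/-- two matrices which commute with a matrix with distinct diagonal entries or with a non zero
entry off the diagonal commute -/
theorem comm_of_comm (M A B : Matrix (Fin 2) (Fin 2) F)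
    (hM : M 0 1 ≠ 0 ∨ M 1 0 ≠ 0 ∨ M 0 0 ≠ M 1 1) (hA : A * M = M * A) (hB : B * M = M * B) :
    A * B = B * A := by
  have e : ∀ {X : Matrix (Fin 2) (Fin 2) F}, X * M = M * X →
      X 0 1 * M 1 0 = M 0 1 * X 1 0 ∧ X 0 1 * (M 1 1 - M 0 0) = M 0 1 * (X 1 1 - X 0 0) ∧
        X 1 0 * (M 1 1 - M 0 0) = M 1 0 * (X 1 1 - X 0 0) := by
    intro X h
    have h0 := congrFun (congrFun h 0) 0
    have h1 := congrFun (congrFun h 0) 1
    have h2 := congrFun (congrFun h 1) 0
    simp only [Matrix.mul_apply, Fin.sum_univ_two] at h0 h1 h2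
    exact ⟨by linear_combination h0, by linear_combination h1, by linear_combination -h2⟩
  obtain ⟨a1, a2, a3⟩ := e hA
  obtain ⟨b1, b2, b3⟩ := e hB
  have k : A 0 1 * B 1 0 = B 0 1 * A 1 0 ∧ A 0 1 * (B 1 1 - B 0 0) = B 0 1 * (A 1 1 - A 0 0) ∧
      A 1 0 * (B 1 1 - B 0 0) = B 1 0 * (A 1 1 - A 0 0) := by
    rcases hM with h | h | h
    · refine ⟨mul_left_cancel₀ h ?_, mul_left_cancel₀ h ?_, mul_left_cancel₀ (mul_ne_zero h h) ?_⟩
      · linear_combination (-A 0 1) * b1 + B 0 1 * a1
      · linear_combination (-A 0 1) * b2 + B 0 1 * a2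
      · linear_combination (-(M 0 1 * (B 1 1 - B 0 0))) * a1 + (M 0 1 * (A 1 1 - A 0 0)) * b1
          - (A 0 1 * M 1 0) * b2 + (B 0 1 * M 1 0) * a2
    · refine ⟨mul_left_cancel₀ h ?_, mul_left_cancel₀ (mul_ne_zero h h) ?_, mul_left_cancel₀ h ?_⟩
      · linear_combination (B 1 0) * a1 - A 1 0 * b1
      · linear_combination (M 1 0 * (B 1 1 - B 0 0)) * a1 - (M 1 0 * (A 1 1 - A 0 0)) * b1
          - (A 1 0 * M 0 1) * b3 + (B 1 0 * M 0 1) * a3
      · linear_combination (-A 1 0) * b3 + B 1 0 * a3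
    · have h' : M 1 1 - M 0 0 ≠ 0 := sub_ne_zero.2 (Ne.symm h)
      refine ⟨mul_left_cancel₀ (mul_ne_zero h' h') ?_, mul_left_cancel₀ h' ?_,
        mul_left_cancel₀ h' ?_⟩
      · linear_combination (B 1 0 * (M 1 1 - M 0 0)) * a2 + (M 0 1 * (A 1 1 - A 0 0)) * b3
          - (A 1 0 * (M 1 1 - M 0 0)) * b2 - (M 0 1 * (B 1 1 - B 0 0)) * a3
      · linear_combination (B 1 1 - B 0 0) * a2 - (A 1 1 - A 0 0) * b2
      · linear_combination (B 1 1 - B 0 0) * a3 - (A 1 1 - A 0 0) * b3
  obtain ⟨k1, k2, k3⟩ := k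
  ext i j
  fin_cases i <;> fin_cases j <;> simp only [Matrix.mul_apply, Fin.sum_univ_two] <;>
    simp only [Fin.zero_eta, Fin.mk_one, Fin.isValue]
  · linear_combination k1
  · linear_combination k2
  · linear_combination -k3
  · linear_combination -k1

/-- the image of a finite group of odd order is commutative -/
theorem odd_comm_hom [CharP F 2] {G : Type} [Group G] [Finite G] (ρ : G →* GL (Fin 2) F)
    (ho : Odd (Nat.card G)) (a b : G) : ρ a * ρ b = ρ b * ρ a := by
  classical
  haveI := Fintype.ofFinite G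
  let E : Matrix (Fin 2) (Fin 2) F := !![1, 0; 0, 0]
  let M : Matrix (Fin 2) (Fin 2) F :=
    ∑ g : G, (ρ g : Matrix (Fin 2) (Fin 2) F) * E * (ρ g⁻¹ : Matrix (Fin 2) (Fin 2) F)
  have hinv : ∀ g : G, (ρ g⁻¹ : Matrix (Fin 2) (Fin 2) F) * (ρ g : Matrix (Fin 2) (Fin 2) F) = 1 := by
    intro g
    rw [← Units.val_mul, ← map_mul, inv_mul_cancel, map_one, Units.val_one]
  have htr : M.trace = 1 := by
    have h1 : ∀ g : G, ((ρ g : Matrix (Fin 2) (Fin 2) F) * E *
        (ρ g⁻¹ : Matrix (Fin 2) (Fin 2) F)).trace = 1 := by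
      intro g
      rw [Matrix.trace_mul_cycle, hinv, one_mul]
      simp [E, Matrix.trace_fin_two]
    simp only [M, Matrix.trace_sum, h1, Finset.sum_const, Finset.card_univ, nsmul_eq_mul, mul_one]
    rw [Nat.card_eq_fintype_card] at ho
    obtain ⟨k, hk⟩ := ho
    rw [hk]
    push_cast
    have h2 : (2 : F) = 0 := CharTwo.two_eq_zero
    rw [h2, zero_mul, zero_add]
  have hc : ∀ x : G, (ρ x : Matrix (Fin 2) (Fin 2) F) * M = M * (ρ x : Matrix (Fin 2) (Fin 2) F) := by
    intro x
    simp only [M, Finset.mul_sum, Finset.sum_mul]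
    refine Fintype.sum_equiv (Equiv.mulLeft x) _ _ fun g => ?_
    simp only [Equiv.coe_mulLeft, mul_inv_rev, map_mul, Units.val_mul, mul_assoc]
    rw [hinv x, mul_one]
  have hM : M 0 0 ≠ M 1 1 := by
    intro h
    rw [Matrix.trace_fin_two, h, CharTwo.add_self_eq_zero] at htr
    exact zero_ne_one htr
  exact Units.ext (comm_of_comm M _ _ (Or.inr (Or.inr hM)) (hc a) (hc b))

/-- a finite subgroup of odd order is commutative -/
theorem odd_comm [CharP F 2] (H : Subgroup (GL (Fin 2) F)) [Finite H] (ho : Odd (Nat.card H))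
    {a b : GL (Fin 2) F} (ha : a ∈ H) (hb : b ∈ H) : a * b = b * a :=
  odd_comm_hom H.subtype ho ⟨a, ha⟩ ⟨b, hb⟩

/-- a finite group with a faithful representation and a cyclic Sylow subgroup is solvable -/
theorem solv_of_cyclic_hom [CharP F 2] {G : Type} [Group G] [Finite G] (ρ : G →* GL (Fin 2) F)
    (hρ : Function.Injective ρ) (P : Sylow 2 G) (hP : IsCyclic P) : Group.IsSolvable G := by
  by_cases h2 : 2 ∣ Nat.card G
  · have hp : (Nat.card G).minFac = 2 := (Nat.minFac_eq_two_iff _).2 h2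
    haveI : Fact (Nat.Prime 2) := ⟨Nat.prime_two⟩
    let f := MonoidHom.transferSylow P (hP.normalizer_le_centralizer hp)
    have hn : ¬ 2 ∣ Nat.card f.ker :=
      MonoidHom.not_dvd_card_ker_transferSylow P (hP.normalizer_le_centralizer hp)
    have ho : Odd (Nat.card f.ker) := Nat.odd_iff.2 (Nat.two_dvd_ne_zero.1 hn)
    haveI : Group.IsSolvable f.ker := Group.isSolvable_of_comm fun a b =>
      Subtype.ext (hρ (by
        rw [Subgroup.coe_mul, Subgroup.coe_mul, map_mul, map_mul]
        exact odd_comm_hom (ρ.comp f.ker.subtype) ho a b))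
    haveI : Group.IsSolvable P := Group.isSolvable_of_comm fun a b => by
      obtain ⟨g, hg⟩ := hP.exists_generator
      obtain ⟨m, rfl⟩ := hg a
      obtain ⟨n, rfl⟩ := hg b
      exact (zpow_add g m n).symm.trans ((congrArg _ (add_comm m n)).trans (zpow_add g n m))
    exact Group.isSolvable_of_ker_le_range f.ker.subtype f (by rw [Subgroup.range_subtype])
  · have ho : Odd (Nat.card G) := Nat.odd_iff.2 (Nat.two_dvd_ne_zero.1 h2)
    exact Group.isSolvable_of_comm fun a b => hρ (by
      rw [map_mul, map_mul]; exact odd_comm_hom ρ ho a b)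

/-- a finite group with a faithful representation and order not divisible by `4` is solvable -/
theorem solv_of_not_four_hom [CharP F 2] {G : Type} [Group G] [Finite G] (ρ : G →* GL (Fin 2) F)
    (hρ : Function.Injective ρ) (h4 : ¬ 4 ∣ Nat.card G) : Group.IsSolvable G := by
  haveI : Fact (Nat.Prime 2) := ⟨Nat.prime_two⟩
  obtain ⟨P⟩ : Nonempty (Sylow 2 G) := inferInstance
  refine solv_of_cyclic_hom ρ hρ P ?_
  obtain ⟨k, hk⟩ := P.2.exists_card_eq
  have hd : 2 ^ k ∣ Nat.card G := hk ▸ Subgroup.card_subgroup_dvd_card (P : Subgroup G)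
  have hk1 : k ≤ 1 := by
    by_contra h
    exact h4 ((pow_dvd_pow 2 (show 2 ≤ k by omega)).trans hd)
  refine isCyclic_of_card_dvd_prime (p := 2) ?_
  rw [hk]
  exact pow_dvd_pow 2 hk1

/-- a finite subgroup with a cyclic Sylow subgroup is solvable -/
theorem solv_of_cyclic [CharP F 2] (H : Subgroup (GL (Fin 2) F)) [Finite H] (P : Sylow 2 H)
    (hP : IsCyclic P) : Group.IsSolvable H :=
  solv_of_cyclic_hom H.subtype H.subtype_injective P hP

/-- a finite subgroup of order not divisible by `4` is solvable -/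
theorem solv_of_not_four [CharP F 2] (H : Subgroup (GL (Fin 2) F)) [Finite H]
    (h4 : ¬ 4 ∣ Nat.card H) : Group.IsSolvable H :=
  solv_of_not_four_hom H.subtype H.subtype_injective h4

end Vale.Agent.P022E.G
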