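import Mathlib

/-!
# P022E, group theory: cocycles of the adjoint action on big subgroups of `GL₂` in characteristic two
-/

set_option linter.all false

open scoped MatrixGroups

namespace Vale.Agent.P022E.G

open Matrix

variable {F : Type} [Field F]

/-- `c` is a cocycle of the adjoint action on `H` -/
def Coc (H : Subgroup (GL (Fin 2) F)) (c : GL (Fin 2) F → Matrix (Fin 2) (Fin 2) F) : Prop :=
  ∀ g ∈ H, ∀ h ∈ H, c (g * h) = c g + g.1 * c h * g⁻¹.1

/-- `c` is a coboundary on `H` -/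
def Cob (H : Subgroup (GL (Fin 2) F)) (c : GL (Fin 2) F → Matrix (Fin 2) (Fin 2) F) : Prop :=
  ∃ X : Matrix (Fin 2) (Fin 2) F, ∀ g ∈ H, c g = X - g.1 * X * g⁻¹.1

variable {H K S : Subgroup (GL (Fin 2) F)} {c : GL (Fin 2) F → Matrix (Fin 2) (Fin 2) F}

theorem Coc.mono (h : Coc H c) (k : K ≤ H) : Coc K c := fun g a g' b => h g (k a) g' (k b)

theorem Coc.one (h : Coc H c) : c 1 = 0 := by
  simpa using h 1 H.one_mem 1 H.one_mem

theorem Coc.sub (h : Coc H c) (X : Matrix (Fin 2) (Fin 2) F) :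
    Coc H fun g => c g - (X - g.1 * X * g⁻¹.1) := fun g a g' b => by
  simp only [h g a g' b, _root_.mul_inv_rev, Units.val_mul]
  noncomm_ring

theorem Cob.of_sub {X : Matrix (Fin 2) (Fin 2) F}
    (h : Cob H fun g => c g - (X - g.1 * X * g⁻¹.1)) : Cob H c := by
  obtain ⟨Y, hY⟩ := h
  refine ⟨X + Y, fun g a => ?_⟩
  rw [sub_eq_iff_eq_add.1 (hY g a)]
  noncomm_ring

theorem Coc.wlog (h : Coc H c) (b : Cob S c)
    (k : ∀ d, Coc H d → (∀ g ∈ S, d g = 0) → Cob H d) : Cob H c := by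
  obtain ⟨X, hX⟩ := b
  exact Cob.of_sub (k _ (h.sub X) fun g a => sub_eq_zero.2 (hX g a))

variable [CharP F 2]

/-- restriction to a subgroup of odd index is injective -/
theorem Coc.res (h : Coc K c) (o : Odd (S.relIndex K)) (b : Cob (S ⊓ K) c) : Cob K c := by
  refine h.wlog b fun d h z => ?_
  have : Finite (K ⧸ S.subgroupOf K) := Nat.finite_of_card_ne_zero o.pos.ne'
  have := Fintype.ofFinite (K ⧸ S.subgroupOf K)
  have w : ∀ k : K, d ((k : K ⧸ S.subgroupOf K).out : K) = d k := fun k => by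
    obtain ⟨s, e⟩ := QuotientGroup.mk_out_eq_mul (S.subgroupOf K) k
    rw [e, Subgroup.coe_mul, h _ k.2 _ s.1.2, z s.1.1 ⟨s.2, s.1.2⟩]
    simp
  refine ⟨∑ q : K ⧸ S.subgroupOf K, d (q.out : K), fun g a => ?_⟩
  have e := Equiv.sum_comp (MulAction.toPerm (⟨g, a⟩ : K))
    fun q : K ⧸ S.subgroupOf K => d (q.out : K)
  have e2 : ∀ q : K ⧸ S.subgroupOf K, d ((MulAction.toPerm (⟨g, a⟩ : K) q).out : K) =
      d g + g.1 * d (q.out : K) * g⁻¹.1 := fun q => by
    rw [← h g a _ q.out.2]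
    refine Eq.trans ?_ (w (⟨g, a⟩ * q.out))
    congr 3
    exact (MulAction.Quotient.mk_smul_out _ _ q).symm
  obtain ⟨n, hn⟩ := o
  have two : (2 : Matrix (Fin 2) (Fin 2) F) = 0 := CharTwo.two_eq_zero
  rw [Subgroup.relIndex, Subgroup.index, Nat.card_eq_fintype_card] at hn
  simp only [e2, Finset.sum_add_distrib, Finset.sum_const, Finset.card_univ, hn, ← Finset.sum_mul,
    ← Finset.mul_sum, nsmul_eq_mul, Nat.cast_add, Nat.cast_mul, Nat.cast_ofNat, two, zero_mul,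
    zero_add, Nat.cast_one, one_mul] at e
  exact eq_sub_of_add_eq e

variable (F) in
/-- the diagonal matrices -/
def Dg : Subgroup (GL (Fin 2) F) where
  carrier := {g | g.1 0 1 = 0 ∧ g.1 1 0 = 0}
  mul_mem' {a b} ha hb := by
    simp [Matrix.mul_apply, Fin.sum_univ_two, ha.1, ha.2, hb.1, hb.2]
  one_mem' := by simp
  inv_mem' {a} ha := by
    simp [Matrix.inv_def, Matrix.adjugate_fin_two, ha.1, ha.2]

theorem dg_odd [Finite H] : Odd ((⊥ : Subgroup (GL (Fin 2) F)).relIndex (Dg F ⊓ H)) := by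
  have : Finite (Dg F ⊓ H : Subgroup _) := Finite.of_injective _
    (Subgroup.inclusion_injective inf_le_right)
  rw [Subgroup.relIndex_bot_left, ← Nat.not_even_iff_odd, even_iff_two_dvd]
  intro h
  obtain ⟨x, hx⟩ := exists_prime_orderOf_dvd_card' 2 h
  have a : x.1.1 * x.1.1 = 1 := by
    have := pow_orderOf_eq_one x
    rw [hx, sq] at this
    exact congrArg (·.1.1) this
  obtain ⟨b1, b2⟩ := x.2.1
  have a1 := congrFun (congrFun a 0) 0
  have a2 := congrFun (congrFun a 1) 1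
  simp only [Matrix.mul_apply, Fin.sum_univ_two, b1, b2, mul_zero, add_zero, zero_add,
    one_apply_eq, mul_self_eq_one_iff, CharTwo.neg_eq, or_self] at a1 a2
  have : x = 1 := Subtype.ext (Units.ext (Matrix.ext fun i j => by
    fin_cases i <;> fin_cases j <;> simp [a1, a2, b1, b2]))
  simp [this] at hx

/-- the normal form of a big group: unipotent Sylow subgroup `P`, transitive torus -/
structure Nf (H P : Subgroup (GL (Fin 2) F)) : Prop where
  le : P ≤ H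
  odd : Odd (P.relIndex H)
  un : ∀ p ∈ P, p.1 0 0 = 1 ∧ p.1 1 1 = 1 ∧ p.1 1 0 = 0
  two : ∃ p ∈ P, ∃ p' ∈ P, p ≠ 1 ∧ p' ≠ 1 ∧ p ≠ p'
  tor : ∀ p ∈ P, ∀ p' ∈ P, p ≠ 1 → p' ≠ 1 → ∃ t ∈ H, t.1 0 1 = 0 ∧ t.1 1 0 = 0 ∧
    t.1 0 0 * p'.1 0 1 = p.1 0 1 * t.1 1 1

theorem cj_mul {g : GL (Fin 2) F} {X Y : Matrix (Fin 2) (Fin 2) F} (h : X = g.1 * Y * g⁻¹.1) :
    X * g.1 = g.1 * Y := by
  rw [h, mul_assoc, Units.inv_mul, mul_one]

/-- **the first cohomology vanishes** -/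
theorem Nf.h1 [Finite H] {P : Subgroup (GL (Fin 2) F)} (N : Nf H P) (h : Coc H c) : Cob H c := by
  refine h.wlog ((h.mono inf_le_right).res (dg_odd (H := H)) ⟨0, fun g a => by
    rw [Subgroup.mem_bot.1 a.1, h.one]; simp⟩) fun d h z => ?_
  have two : (2 : F) = 0 := CharTwo.two_eq_zero
  have ext : ∀ p ∈ P, ∀ p' ∈ P, p.1 0 1 = p'.1 0 1 → p = p' := fun p a p' b e =>
    Units.ext (Matrix.ext fun i j => by
      fin_cases i <;> fin_cases j <;> simp [N.un p a, N.un p' b, e])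
  have ne : ∀ p ∈ P, p ≠ 1 → p.1 0 1 ≠ 0 := fun p a b e => b (ext p a 1 P.one_mem (by simpa))
  have law : ∀ p ∈ P, ∀ p' ∈ P, (d (p * p') 0 0 - d p 0 0 = d p' 0 0 + p.1 0 1 * d p' 1 0) ∧
      (d (p * p') 0 0 - d p 0 0) * p.1 0 1 + (d (p * p') 0 1 - d p 0 1) =
        d p' 0 1 + p.1 0 1 * d p' 1 1 := fun p a p' b => by
    have e := cj_mul (sub_eq_of_eq_add' (h p (N.le a) p' (N.le b)))
    have e1 := congrFun (congrFun e 0) 0
    have e2 := congrFun (congrFun e 0) 1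
    simp only [Matrix.mul_apply, Fin.sum_univ_two, N.un p a, Matrix.sub_apply, mul_one, mul_zero,
      add_zero, one_mul] at e1 e2
    exact ⟨e1, e2⟩
  have sq : ∀ p ∈ P, p * p = 1 := fun p a => ext _ (P.mul_mem a a) 1 P.one_mem (by
    simp only [Units.val_mul, Matrix.mul_apply, Fin.sum_univ_two, N.un p a, Units.val_one,
      one_apply_ne (zero_ne_one' (Fin 2))]
    linear_combination p.1 0 1 * two)
  have s1 : ∀ p ∈ P, p ≠ 1 → d p 1 0 = 0 ∧ d p 1 1 = d p 0 0 := fun p a b => by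
    obtain ⟨e1, e2⟩ := law p a p a
    rw [sq p a, h.one] at e1 e2
    simp only [Matrix.zero_apply] at e1 e2
    exact ⟨mul_left_cancel₀ (ne p a b) (by linear_combination -e1 - d p 0 0 * two),
      mul_left_cancel₀ (ne p a b) (by
        linear_combination -e2 - (d p 0 1 + p.1 0 1 * d p 0 0) * two)⟩
  have s2 : ∀ p ∈ P, ∀ p' ∈ P, p ≠ 1 → p' ≠ 1 →
      d p 0 0 = d p' 0 0 ∧ d p 0 1 * p'.1 0 1 = p.1 0 1 * d p' 0 1 := fun p a p' b a' b' => by
    obtain ⟨t, m, t1, t2, t3⟩ := N.tor p a p' b a' b'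
    have e0 : t * p' = p * t := Units.ext (Matrix.ext fun i j => by
      fin_cases i <;> fin_cases j <;>
        simp [Matrix.mul_apply, Fin.sum_univ_two, N.un p a, N.un p' b, t1, t2, t3])
    have e := h t m p' (N.le b)
    rw [e0, h p (N.le a) t m, z t ⟨⟨t1, t2⟩, m⟩, mul_zero, zero_mul, add_zero, zero_add] at e
    have e := cj_mul e
    have e1 := congrFun (congrFun e 0) 0
    have e2 := congrFun (congrFun e 0) 1
    simp only [Matrix.mul_apply, Fin.sum_univ_two, t1, t2, mul_zero, add_zero, zero_mul,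
      zero_add] at e1 e2
    have dt := t.isUnit.map detMonoidHom |>.ne_zero
    rw [coe_detMonoidHom, det_fin_two, t1, zero_mul, sub_zero, mul_ne_zero_iff] at dt
    exact ⟨mul_right_cancel₀ dt.1 (e1.trans (mul_comm _ _)), mul_left_cancel₀ dt.1 (by
      linear_combination d p 0 1 * t3 + p.1 0 1 * e2)⟩
  obtain ⟨p, a, p', b, a', b', ab⟩ := N.two
  have x0 : d p 0 0 = 0 := by
    have n : p * p' ≠ 1 := fun e => ab (mul_left_cancel ((sq p a).trans e.symm))
    have e := (law p a p' b).1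
    rw [(s2 _ (P.mul_mem a b) p a n a').1, (s1 p' b b').1, ← (s2 p a p' b a' b').1] at e
    simpa using e.symm
  refine h.res N.odd ⟨!![d p 0 1 / p.1 0 1, 0; 0, 0], fun g m => ?_⟩
  by_cases g1 : g = 1
  · rw [g1, h.one]; simp
  have m := m.1
  obtain ⟨u1, u2⟩ := s2 g m p a g1 a'
  obtain ⟨u3, u4⟩ := s1 g m g1
  have u5 : d g 0 1 = g.1 0 1 * (d p 0 1 / p.1 0 1) := by
    rw [← mul_div_assoc, eq_div_iff (ne p a a'), u2]
  rw [inv_eq_of_mul_eq_one_right (sq g m)]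
  refine Matrix.ext fun i j => ?_
  fin_cases i <;> fin_cases j <;>
    simp [Matrix.mul_apply, Fin.sum_univ_two, N.un g m, u1, u3, u4, u5, x0, CharTwo.neg_eq, mul_comm]

/-- a conjugate of `H` is in normal form -/
def BigG (H : Subgroup (GL (Fin 2) F)) : Prop :=
  ∃ (u : GL (Fin 2) F) (P : Subgroup (GL (Fin 2) F)), Nf (H.map (MulAut.conj u).toMonoidHom) P

theorem BigG.h1 [Finite H] (B : BigG H) (h : Coc H c) : Cob H c := by
  obtain ⟨u, P, N⟩ := B
  have : Finite (H.map (MulAut.conj u).toMonoidHom) :=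
    Finite.of_surjective _ (MonoidHom.subgroupMap_surjective _ H)
  obtain ⟨X, hX⟩ := N.h1 (c := fun g => u.1 * c (u⁻¹ * g * u) * u⁻¹.1) (by
    rintro _ ⟨g, a, rfl⟩ _ ⟨g', b, rfl⟩
    have e : ∀ x : GL (Fin 2) F, u⁻¹ * (MulAut.conj u).toMonoidHom x * u = x := fun x => by
      simp [mul_assoc]
    simp only [← map_mul, e, h g a g' b]
    simp [mul_assoc, mul_add, add_mul])
  refine ⟨u⁻¹.1 * X * u.1, fun g a => ?_⟩
  have e := congrArg (fun Y => u⁻¹.1 * Y * u.1) (hX _ ⟨g, a, rfl⟩)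
  simpa [mul_assoc, mul_sub, sub_mul] using e

/-- **a cocycle which vanishes on the kernel is a coboundary** -/
theorem BigG.h1G {G : Type} [Group G] {ρ : G →* GL (Fin 2) F} {Γ : Subgroup G}
    {c : G → Matrix (Fin 2) (Fin 2) F} [Finite (Γ.map ρ)] (B : BigG (Γ.map ρ))
    (h : ∀ g ∈ Γ, ∀ g' ∈ Γ, c (g * g') = c g + (ρ g).1 * c g' * (ρ g⁻¹).1)
    (k : ∀ g ∈ Γ, ρ g = 1 → c g = 0) :
    ∃ X : Matrix (Fin 2) (Fin 2) F, ∀ g ∈ Γ, c g = X - (ρ g).1 * X * (ρ g⁻¹).1 := by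
  have w : ∀ g ∈ Γ, c (Classical.epsilon fun x => x ∈ Γ ∧ ρ x = ρ g) = c g := fun g a => by
    obtain ⟨b1, b2⟩ := Classical.epsilon_spec (p := fun x => x ∈ Γ ∧ ρ x = ρ g) ⟨g, a, rfl⟩
    generalize (Classical.epsilon fun x => x ∈ Γ ∧ ρ x = ρ g) = x at *
    have m := Γ.mul_mem (Γ.inv_mem a) b1
    have e := h g a _ m
    rwa [mul_inv_cancel_left, k _ m (by rw [map_mul, map_inv, b2, inv_mul_cancel]), mul_zero,
      zero_mul, add_zero] at e
  obtain ⟨X, hX⟩ := B.h1 (c := fun y => c (Classical.epsilon fun x => x ∈ Γ ∧ ρ x = y)) (by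
    rintro _ ⟨g, a, rfl⟩ _ ⟨g', b, rfl⟩
    simp only [← map_mul, w g a, w g' b, w _ (Γ.mul_mem a b), h g a g' b, map_inv])
  exact ⟨X, fun g a => by rw [← w g a, map_inv]; exact hX _ ⟨g, a, rfl⟩⟩

end Vale.Agent.P022E.G
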